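import Claimed.Agent.R316.Pack016
import Claimed.Agent.R316.S7.H1.FlowChart
import Claimed.Agent.R316.Pack009

/-!
# Row 316, Lemma 7.2, first assertion (`St72a`): `Harnack` + `UniformCharts` ⟹ `LocalCharts`

Owner: helper11 (agreed with helper195, who owns `St72`).  PROVED, no `sorry`; auxiliary lemmas: prefix `ucl_`.

Proof.  `lam = 1`, `ρ = δ = 1`, `t₀ = t ≥ 2`.  For `t' ∈ [t - 1, t + 1]` and `x` in the `h_{t'}`-ball of radius `1` about `p ∈ K` the integrated Harnack inequality (7.3)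
with `(t', x)`, `(t' + 1, o)` gives `R(t', x) ≤ R(t' + 1, o) ((t' + 1) / t') exp (C d_{t'}(x, o)²) ≤ 2 C₀ exp (C (1 + D_K)²)`, since the metrics decrease:
`d_{t'}(x, o) ≤ 1 + d_{t'}(p, o) ≤ 1 + d_0(p, o) ≤ 1 + D_K`.  The space derivatives are the space-time derivatives composed with `w ↦ (0, w)`.
-/

set_option autoImplicit false
set_option linter.unusedSectionVars false
open scoped ContDiff ComplexOrder Topology

namespace Claimed.Agent.R316

/-- derivatives of a slice are bounded by the derivatives of the function. -/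
theorem ucl_norm_iteratedFDeriv_slice {E : Type} [NormedAddCommGroup E] [NormedSpace ℝ E]
    {F : ℝ × E → ℂ} {S : Set (ℝ × E)} (hS : IsOpen S) (hF : ContDiffOn ℝ ∞ F S) {w : E}
    (hw : ((0 : ℝ), w) ∈ S) (k : ℕ) :
    ‖iteratedFDeriv ℝ k (fun y : E => F (0, y)) w‖ ≤ ‖iteratedFDeriv ℝ k F (0, w)‖ := by
  set L : E →L[ℝ] ℝ × E := ContinuousLinearMap.inr ℝ ℝ E with hL
  have hLw : L w = (0, w) := rfl
  have hS' : IsOpen (L ⁻¹' S) := hS.preimage L.continuous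
  have h1 := L.iteratedFDerivWithin_comp_right hF hS.uniqueDiffOn hS'.uniqueDiffOn (x := w)
    (by rw [hLw]; exact hw) (i := k) (by exact_mod_cast le_top)
  rw [iteratedFDerivWithin_of_isOpen k hS' (by show L w ∈ S; rw [hLw]; exact hw),
    iteratedFDerivWithin_of_isOpen k hS (by rw [hLw]; exact hw)] at h1
  have h2 : (fun y : E => F (0, y)) = F ∘ L := rfl
  rw [h2, h1, hLw]
  refine (ContinuousMultilinearMap.norm_compContinuousLinearMap_le _ _).trans ?_
  have h3 : ∏ _i : Fin k, ‖L‖ ≤ 1 := by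
    refine Finset.prod_le_one (fun _ _ => norm_nonneg _) fun _ _ => ?_
    exact ContinuousLinearMap.norm_inr_le_one ℝ ℝ E
  exact mul_le_of_le_one_right (norm_nonneg _) h3

variable {V : Type} [NormedAddCommGroup V] [NormedSpace ℝ V] [MeasurableSpace V] [BorelSpace V]
variable {n : ℕ}
variable {𝓜 : CMfd V (Fin n)} {g : HFam V (Fin n)} {o : V}

/-- the curvature bound on the moving unit balls about the points of a compact set. -/
theorem ucl_R_bound [FiniteDimensional ℝ V] (D : FlowData 𝓜 g o) (I : InitialData 𝓜 g)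
    (ho : o ∈ 𝓜.carrier) (Hk : D.Harnack) {K : Set V} (hK : IsCompact K) (hKM : K ⊆ 𝓜.carrier) :
    ∃ Λ : ℝ, 0 < Λ ∧ ∀ t : ℝ, 1 ≤ t → ∀ p ∈ K, ∀ x ∈ hball 𝓜 (D.h t) p 1, D.R t x ≤ Λ := by
  obtain ⟨C₀, hC₀⟩ := Hk.R_o_le
  obtain ⟨C₁, hC₁⟩ := Hk.integrated
  have hm0 : IsMetric 𝓜 (D.h 0) := fc_metric D le_rfl
  obtain ⟨DK, hDK⟩ := hK.bddAbove_image ((continuousOn_hdist_right hm0 I.conn ho).mono hKM)
  have hDK' : ∀ p ∈ K, hdist 𝓜 (D.h 0) o p ≤ max DK 0 := fun p hp =>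
    (hDK (Set.mem_image_of_mem _ hp)).trans (le_max_left _ _)
  refine ⟨max C₀ 0 * 2 * Real.exp (max C₁ 0 * (1 + max DK 0) ^ 2) + 1, by positivity,
    fun t ht p hp x hx => ?_⟩
  have ht0 : 0 < t := by linarith
  have hmt : IsMetric 𝓜 (D.h t) := fc_metric D ht0.le
  have hpM := hKM hp
  have h1 := hC₁ t (t + 1) ht0 (by linarith) x hx.1 o ho
  have hd1 : hdist 𝓜 (D.h t) x o ≤ 1 + max DK 0 := by
    have a1 := hdist_triangle hmt I.conn hx.1 hpM ho
    have a2 : hdist 𝓜 (D.h t) x p < 1 := by rw [hdist_comm hmt]; exact hx.2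
    have a3 : hdist 𝓜 (D.h t) p o ≤ hdist 𝓜 (D.h 0) p o :=
      hdist_mono hmt hm0 (Hk.mono 0 t le_rfl ht0.le) I.conn hpM ho
    have a4 := hDK' p hp
    rw [hdist_comm hm0] at a4
    linarith
  have hd0 : 0 ≤ hdist 𝓜 (D.h t) x o := hdist_nonneg _ _ _ _
  have e1 : C₁ * hdist 𝓜 (D.h t) x o ^ 2 / (t + 1 - t) ≤ max C₁ 0 * (1 + max DK 0) ^ 2 := by
    have : t + 1 - t = 1 := by ring
    rw [this, div_one]
    calc C₁ * hdist 𝓜 (D.h t) x o ^ 2 ≤ max C₁ 0 * hdist 𝓜 (D.h t) x o ^ 2 :=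
          mul_le_mul_of_nonneg_right (le_max_left _ _) (by positivity)
      _ ≤ max C₁ 0 * (1 + max DK 0) ^ 2 :=
          mul_le_mul_of_nonneg_left (pow_le_pow_left₀ hd0 hd1 2) (le_max_right _ _)
  have e2 : (t + 1) / t ≤ 2 := by rw [div_le_iff₀ ht0]; linarith
  have e3 : 0 < (t + 1) / t := by positivity
  have e4 : D.R (t + 1) o ≤ max C₀ 0 := (hC₀ (t + 1) (by linarith)).trans (le_max_left _ _)
  calc D.R t x ≤ D.R (t + 1) o * ((t + 1) / t)
        * Real.exp (C₁ * hdist 𝓜 (D.h t) x o ^ 2 / (t + 1 - t)) := h1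
    _ ≤ max C₀ 0 * 2 * Real.exp (max C₁ 0 * (1 + max DK 0) ^ 2) := by
        refine mul_le_mul ?_ (Real.exp_le_exp.2 e1) (Real.exp_pos _).le
          (mul_nonneg (le_max_right _ _) (by norm_num))
        calc D.R (t + 1) o * ((t + 1) / t) ≤ max C₀ 0 * ((t + 1) / t) :=
              mul_le_mul_of_nonneg_right e4 e3.le
          _ ≤ max C₀ 0 * 2 := mul_le_mul_of_nonneg_left e2 (le_max_right _ _)
    _ ≤ _ := by linarith

/-- joint smoothness of the time shifted metric in an immersed chart. -/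
theorem ucl_contDiffOn (D : FlowData 𝓜 g o) (hg : IsMetric 𝓜 g) {Φ : CE (Fin n) → V}
    {U : Set (CE (Fin n))} (hΦ : 𝓜.IsHol Φ U) (t : ℝ) (j l : Fin n) :
    ContDiffOn ℝ ∞ (fun q : ℝ × CE (Fin n) => D.h (t + q.1) Φ q.2 j l) (Set.Ioi (-t) ×ˢ U) := by
  have h1 := fc_contDiffOn_h D hg hΦ j l
  have h2 : ContDiff ℝ ∞ (fun q : ℝ × CE (Fin n) => (t + q.1, q.2)) :=
    (contDiff_const.add contDiff_fst).prodMk contDiff_snd
  have h3 := ContDiffOn.comp h1 h2.contDiffOn (s := Set.Ioi (-t) ×ˢ U) (fun q hq => by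
    refine ⟨?_, hq.2⟩
    have : -t < q.1 := hq.1
    show (0 : ℝ) ≤ t + q.1
    linarith)
  simp only [Function.comp_def] at h3
  exact h3

/-- **Lemma 7.2, first assertion.** -/
theorem st72a [FiniteDimensional ℝ V] (D : FlowData 𝓜 g o) : St72a D := by
  intro I ho Hk UC K hK hKM
  obtain ⟨Λ, hΛ, hR⟩ := ucl_R_bound D I ho Hk hK hKM
  obtain ⟨r, c, C, Ck, hr, hc, H⟩ := UC 1 1 Λ one_pos one_pos hΛ
  refine ⟨r, c, C, 2, Ck, hr, hc, fun t ht p hp => ?_⟩
  obtain ⟨Φ, hΦ, h0, h1, h2, h3⟩ := H t 1 p (hKM hp) one_pos (by norm_num; linarith) (by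
    intro t' ht' x hx
    rw [Real.sqrt_one, div_one] at hx
    rw [mul_one]
    refine hR t' ?_ p hp x hx
    have := ht'.1
    norm_num at this
    linarith)
  have hz : (0 : ℝ) ∈ Set.Icc (-((1 : ℝ) / 2)) (1 / 2) := ⟨by norm_num, by norm_num⟩
  refine ⟨Φ, hΦ, h0, by simpa using h1, fun w hw => ?_, fun k j l w hw => ?_⟩
  · simpa using h2 0 hz w hw
  · obtain ⟨U, -, hwU, hU⟩ := hΦ.2 w hw
    have h4 := h3 k j l 0 hz w hw
    simp only [Complex.ofReal_one, one_mul, div_one] at h4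
    have h5 := ucl_norm_iteratedFDeriv_slice
      (F := fun q : ℝ × CE (Fin n) => D.h (t + q.1) Φ q.2 j l)
      (isOpen_Ioi.prod (𝓜.isParam hU).isOpen)
      (ucl_contDiffOn D I.kahler.toIsMetric hU t j l) (w := w)
      ⟨by show -t < 0; linarith, hwU⟩ k
    simp only [add_zero] at h5
    exact h5.trans h4

end Claimed.Agent.R316
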