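import Claimed.Agent.R316.Base.Chart.Main
import Claimed.Agent.R316.Pack016
import Claimed.Agent.R316.S7.H1.FlowChart
import Claimed.Agent.R316.B9.LocalReg

/-!
# Row 316, Lemma 7.2, general (scale invariant) form: `St72` (`Harnack ⟹ UniformCharts`)

Architect: helper195 (`BP-S7-2`).  PAPER FREE.  THIS FILE IS SORRY-FREE (helper195): `st72` depends only on `uc_chart_of_scal_le` + section `scale` (`Base/Chart/Main.lean`, `BP-G14`), on `B9.stCRLocalReg`, `B9.within_eq_interior` and on `qf_ricF_le` (RGeo/Kahler).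

PROOF.  `W : UcWin D ρ δ Λ t₀ lam p` = the hypotheses of `UniformCharts`.  `T₋ = t₀ - δ/lam > 0`, `Ω = hball (D.h T₋) p (ρ/√lam)` (ball of the EARLIEST, i.e. largest, metric).
(a) the metrics decrease, so `Ω ⊆ hball (D.h t) p (ρ/√lam)` for all `t` of the window: `R ≤ Λ lam` on `Ω` during the whole window (`UcWin.R_le_Om`).
(b) at the points of `Ω`: `∂_t h = - Ric`, `0 ≤ Ric ≤ R h ≤ Λ lam h`: `e^{-Λ lam (t₂ - t₁)} h_{t₁} ≤ h_{t₂} ≤ h_{t₁}` (`uc_exp_mul_qf_le`, `uc_qf_anti`).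
(c) the chart `Φ` of `BP-G14` for the metric `lam h_{t₀}` (`9/100 ≤ lam h_{t₀} Φ ≤ 100/9` on `ball 0 r_A`): `Φ (ball 0 r₀) ⊆ Ω` as soon as `e^{Λδ/2} √(100/9) r₀ ≤ ρ` (`UcWin.chart_mem_Om`; first exit argument hidden in `uc_hdist_le_of_leFOn_left`).
(d) so `e^{-Λδ} (9/100) ≤ lam h_{t₀ + z/lam} Φ w ≤ e^{Λδ} (100/9)` for `|z| ≤ δ`, `|w| < r₀` (`UcWin.chart_bounds`), and `K z w = lam h_{t₀+z/lam} Φ w` solves `∂_z K = levi (log det K)` with `K` closed: `B9.stCRLocalReg` bounds all derivatives for `|z| ≤ δ/2`, `|w| < r₀/2`.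

## Leaves (sections)
* `L-S7-2-M` (section `metric`): two general facts on `hdist`.        * `L-S7-2-T` (section `time`): (b).
* `L-S7-2-W` (section `window`): (a), (c), (d).          * `L-S7-2-R` (section `reg`): the rescaled flow in the chart satisfies the hypotheses of `StCRLocalReg`.

## RECIPES
**M.**  `uc_hdist_le_of_leFOn_left`: let `ε > 0`, `L = min (d' + ε) R` (`d' = hdist h' x y < R`); `g0_exists_curve_lt` gives `γ`, `γ 0 = x`, `γ 1 = y`, `len h' γ 0 1 < L`.  CLAIM: `γ t ∈ hball h x R` for `t ∈ Icc 0 1`.  The set `A = {t ∈ Icc 0 1 | ∀ s ∈ Icc 0 t, γ s ∈ hball h x R}` contains `0`.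
If `t ∈ A` then `hdist h x (γ t) ≤ len h γ 0 t ≤ len h' γ 0 t ≤ len h' γ 0 1 < L` (`hdist_le_len`, `intervalIntegral.integral_mono_on` + `ambQ_mono_on hle`, `len_le_len`).  `φ t = hdist h x (γ t)` is continuous (`continuousOn_hdist_right`, `hγ.1.continuous`, `hγ.2`).  Let `t⋆ = sSup A`: by continuity `φ ≤ L' := len h' γ 0 1 < R` on `[0,t⋆]`,
so `t⋆ ∈ A`, and if `t⋆ < 1` then `φ < R` on a neighbourhood of `t⋆`: contradiction.  (Alternative without `sSup`: `IsClosed.Icc_subset_of_forall_mem_nhdsWithin` applied to the closed set `{t ∈ Icc 0 1 | φ t ≤ L'}`... any connectedness argument.)  Then `hdist h x y ≤ len h γ 0 1 ≤ len h' γ 0 1 < d' + ε`.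
`IsLocBihol.hdist_le`: `γ t = Φ (t • w)` on `Icc 0 1`; `hdist_le_integral_of_contDiffOn` (`hΦ.contDiffOn`, `hΦ.mapsTo`); `derivWithin γ (Icc 0 1) t = fderiv ℝ Φ (t • w) w`; `ambQ_param` in the small `U` of `hΦ.2 (t • w)`; `qf (h Φ (t • w)) w ≤ C ‖w‖²` (`uc_le_cI_iff`, `IsLocBihol.isHermitian`);
`∫_0^1 √(..) ≤ √C ‖w‖` (`intervalIntegral.integral_mono_on`/`norm_integral_le_of_norm_le_const`; if integrability is a nuisance: the integrand is continuous on `Icc 0 1` as `√(qf (h Φ (t • w)) w)`, `IsLocBihol.contDiffOn_form`).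
**T.**  `φ t = qf (D.h t Φ z) v = Re ∑ conj v_j (D.h t Φ z) j k v_k` (`qf_eq_sum`): `HasDerivAt φ (- qf (D.ric t Φ z) v) t` for `t > 0` (`fc_dt_h`, finite sums).  `qf_ricF_le (D.kahler t _) (Hk.bisec t _) hΦ hz v` and `trF (D.h t) (ricF (D.h t)) Φ z = scalCurv 𝓜 (D.h t) (Φ z) = D.R t (Φ z)` (`scalCurv_eq`, `D.R_eq`),
`φ ≥ 0`: `φ' ≥ - κ φ` on `Icc t₁ t₂`.  `ψ t = exp (κ t) φ t` has `ψ' ≥ 0`: `monotoneOn_of_deriv_nonneg (convex_Icc _ _)`; `ψ t₁ ≤ ψ t₂`.  `uc_qf_anti`: `qf_mono (Hk.mono t₁ t₂ h1 h12 Φ U hΦ z hz) v`.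
**W.**  `R_le_Om`: `hdist_mono (fc_metric ..) (fc_metric ..) (Hk.mono T₋ t ..) I.conn`.  `leFOn_early`: `posSemidef_iff_qf` (Hermitian: `IsHForm.herm`, `IsHermitian.sub`), `qf_sub`, `qf_smul`, `uc_exp_mul_qf_le` with `t₁ = T₋`, `t₂ = t₀`, `κ = Λ lam`, `κ (t₂ - t₁) = Λ δ`; multiply by `exp (Λ δ)`.
`chart_mem_Om`: see (c): `h' = smulF (fun _ => exp (Λ δ)) (D.h t₀)`; `hdist_smulF_const`; `√(exp (Λδ)) = exp (Λδ/2)`; `IsLocBihol.hdist_le` for `D.h t₀` with the constant `C/lam` (`uc_leM_smul`); `uc_hdist_le_of_leFOn_left` with `R = ρ/√lam`.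
`chart_bounds`: cases `0 ≤ z`, `z ≤ 0` as in (b); `uc_cI_le_iff`, `uc_le_cI_iff`, `qf_smul`; pick the small `U` of `hΦ.2 w`.
**R.**  Everything is local: fix `w`, `U` from `hΦ.2 w`.  `contDiffOn`: `fc_contDiffOn_h D hg hU j k` composed with the affine map `(s,y) ↦ (t₀ + s/lam, y)`, which maps `Icc (-δ) δ ×ˢ U` into `Ici 0 ×ˢ U`; `ContDiffWithinAt` at each point, `mono_of_mem_nhdsWithin`.  `hasDeriv`: `fc_dt_h` + chain rule (`HasDerivAt.comp`, `hasDerivAt` of `s ↦ t₀ + s/lam` is `1/lam`),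
`lam * (- ric * (1/lam)) = - ric`; `ricF_smul_real` (`ricF (lam • h) Φ z = ricF h Φ z`, and `ricF .. = - levi (log det ..)` by definition).  `closed`: `(D.kahler t _).smul_real`'s field `closed`.
-/

set_option autoImplicit false
set_option linter.unusedSectionVars false
set_option maxSynthPendingDepth 3
open scoped ContDiff Topology ComplexOrder Matrix ComplexConjugate

namespace Claimed.Agent.R316

section metric

variable {V : Type} [NormedAddCommGroup V] [NormedSpace ℝ V] [FiniteDimensional ℝ V]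
variable {ι : Type} [Fintype ι] [DecidableEq ι]
variable {𝓜 : CMfd V ι} {h h' : HFam V ι} {Φ : CE ι → V}

/-- if `h ≤ h'` on the `h`-ball `B_h(x,R)` then `d_h(x,y) ≤ d_{h'}(x,y)` for `y` in the `h'`-ball `B_{h'}(x,R)` (in particular `B_{h'}(x,R) ⊆ B_h(x,R)`). -/
theorem uc_hdist_le_of_leFOn_left (hm : IsMetric 𝓜 h) (hm' : IsMetric 𝓜 h')
    (hconn : IsConnected 𝓜.carrier) {x y : V} (hx : x ∈ 𝓜.carrier) {R : ℝ}
    (hle : leFOn 𝓜 (hball 𝓜 h x R) h h') (hy : y ∈ hball 𝓜 h' x R) :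
    hdist 𝓜 h x y ≤ hdist 𝓜 h' x y := by
  refine le_of_forall_pos_le_add fun ε hε => ?_
  have hL : hdist 𝓜 h' x y < min (hdist 𝓜 h' x y + ε) R := lt_min (by linarith) hy.2
  obtain ⟨γ, hγ, h0, h1, hlt⟩ := g0_exists_curve_lt hconn hx hy.1 hL
  have hltR : len 𝓜 h' γ 0 1 < R := hlt.trans_le (min_le_right _ _)
  have hφ : Continuous fun t => hdist 𝓜 h x (γ t) :=
    (continuousOn_hdist_right hm hconn hx).comp_continuous hγ.1.continuous hγ.2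
  -- comparison of lengths as long as the curve stays in the ball
  have hcmp : ∀ t ∈ Set.Icc (0 : ℝ) 1, (∀ u ∈ Set.Ioo 0 t, hdist 𝓜 h x (γ u) < R) →
      hdist 𝓜 h x (γ t) ≤ len 𝓜 h' γ 0 1 := by
    intro t ht hu
    have a1 := hdist_le_len hm hγ ht.1
    rw [h0] at a1
    have a2 : len 𝓜 h γ 0 t ≤ len 𝓜 h' γ 0 t :=
      intervalIntegral.integral_mono_on_of_le_Ioo ht.1
        ((hγ.continuous_speed hm.toIsHForm).intervalIntegrable _ _)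
        ((hγ.continuous_speed hm'.toIsHForm).intervalIntegrable _ _)
        fun u hu' => Real.sqrt_le_sqrt (ambQ_mono_on hle (hγ.2 u) ⟨hγ.2 u, hu u hu'⟩ _)
    have a3 := len_le_len (a := 0) hm'.toIsHForm hγ ht.2
    linarith
  have hall : ∀ t ∈ Set.Icc (0 : ℝ) 1, hdist 𝓜 h x (γ t) < R := by
    by_contra hcon
    push Not at hcon
    have hne : (Set.Icc (0 : ℝ) 1 ∩ (fun t => hdist 𝓜 h x (γ t)) ⁻¹' Set.Ici R).Nonempty := by
      obtain ⟨t, ht, htR⟩ := hcon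
      exact ⟨t, ht, htR⟩
    have hcpt : IsCompact (Set.Icc (0 : ℝ) 1 ∩ (fun t => hdist 𝓜 h x (γ t)) ⁻¹' Set.Ici R) :=
      isCompact_Icc.inter_right (isClosed_Ici.preimage hφ)
    obtain ⟨ts, hts, hmin⟩ := hcpt.exists_isLeast hne
    have b1 : hdist 𝓜 h x (γ ts) ≤ len 𝓜 h' γ 0 1 := by
      refine hcmp ts hts.1 fun u hu => ?_
      by_contra hc
      have : ts ≤ u := hmin ⟨⟨hu.1.le, hu.2.le.trans hts.1.2⟩, not_lt.1 hc⟩
      linarith [hu.2]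
    have b2 : R ≤ hdist 𝓜 h x (γ ts) := hts.2
    linarith
  have h3 := hcmp 1 ⟨zero_le_one, le_rfl⟩ fun u hu => hall u ⟨hu.1.le, hu.2.le⟩
  rw [h1] at h3
  have h4 : min (hdist 𝓜 h' x y + ε) R ≤ hdist 𝓜 h' x y + ε := min_le_left _ _
  linarith

/-- distance from the centre in an immersed chart. -/
theorem IsLocBihol.hdist_le {r C : ℝ} (hΦ : IsLocBihol 𝓜 Φ (Metric.ball 0 r)) (hm : IsMetric 𝓜 h)
    (hC : 0 ≤ C) (hb : ∀ w ∈ Metric.ball (0 : CE ι) r, leM (h Φ w) (cI C)) {w : CE ι}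
    (hw : w ∈ Metric.ball (0 : CE ι) r) : hdist 𝓜 h (Φ 0) (Φ w) ≤ Real.sqrt C * ‖w‖ := by
  have hmem : ∀ t ∈ Set.Icc (0 : ℝ) 1, t • w ∈ Metric.ball (0 : CE ι) r := by
    intro t ht
    rw [mem_ball_zero_iff] at hw ⊢
    rw [norm_smul, Real.norm_eq_abs, abs_of_nonneg ht.1]
    calc t * ‖w‖ ≤ 1 * ‖w‖ := mul_le_mul_of_nonneg_right ht.2 (norm_nonneg _)
      _ < r := by linarith
  have hc : ContDiffOn ℝ 1 (fun t : ℝ => t • w) (Set.Icc 0 1) :=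
    (contDiff_id.smul contDiff_const).contDiffOn
  have hγ : ContDiffOn ℝ 1 (fun t : ℝ => Φ (t • w)) (Set.Icc 0 1) :=
    (hΦ.contDiffOn.of_le (by exact_mod_cast le_top)).comp hc hmem
  have h1 := hdist_le_integral_of_contDiffOn hm zero_le_one hγ
    (fun t ht => hΦ.mapsTo (hmem t ht))
  simp only [zero_smul, one_smul] at h1
  refine h1.trans ?_
  have h2 := intervalIntegral.norm_integral_le_of_norm_le_const (a := 0) (b := 1)
    (C := Real.sqrt C * ‖w‖)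
    (f := fun t => Real.sqrt (ambQ 𝓜 h (Φ (t • w))
      (derivWithin (fun t : ℝ => Φ (t • w)) (Set.Icc 0 1) t))) (by
    intro t ht
    rw [Set.uIoc_of_le zero_le_one] at ht
    have ht' : t ∈ Set.Icc (0 : ℝ) 1 := ⟨ht.1.le, ht.2⟩
    obtain ⟨U, _, htU, hU⟩ := hΦ.2 _ (hmem t ht')
    have hd : HasDerivWithinAt (fun t : ℝ => t • w) w (Set.Icc 0 1) t := by
      have := ((hasDerivAt_id t).smul_const w).hasDerivWithinAt (s := Set.Icc 0 1)
      simpa using this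
    have h3 : derivWithin (fun t : ℝ => Φ (t • w)) (Set.Icc 0 1) t = fderiv ℝ Φ (t • w) w :=
      (((𝓜.isParam hU).differentiableAt htU).hasFDerivAt.comp_hasDerivWithinAt t hd).derivWithin
        (uniqueDiffOn_Icc zero_lt_one t ht')
    rw [h3, ambQ_param hm.toIsHForm hU htU, Real.norm_eq_abs, abs_of_nonneg (Real.sqrt_nonneg _)]
    have h4 := (uc_le_cI_iff (hm.herm hU _ htU) C).1 (hb _ (hmem t ht')) w
    calc Real.sqrt (qf (h Φ (t • w)) w) ≤ Real.sqrt (C * ‖w‖ ^ 2) := Real.sqrt_le_sqrt h4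
      _ = Real.sqrt C * ‖w‖ := by
        rw [Real.sqrt_mul hC, Real.sqrt_sq (norm_nonneg _)])
  rw [Real.norm_eq_abs] at h2
  have h5 := (le_abs_self _).trans h2
  simpa using h5

end metric

variable {V : Type} [NormedAddCommGroup V] [NormedSpace ℝ V] [MeasurableSpace V] [BorelSpace V]
variable [FiniteDimensional ℝ V]
variable {n : ℕ}
variable {𝓜 : CMfd V (Fin n)} {g : HFam V (Fin n)} {o : V}
variable {Φ : CE (Fin n) → V} {U : Set (CE (Fin n))}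

section time

variable (D : FlowData 𝓜 g o) {z : CE (Fin n)} {t₁ t₂ κ : ℝ}

theorem uc_qf_anti (Hk : D.Harnack) (hΦ : 𝓜.IsHol Φ U) (hz : z ∈ U) (h1 : 0 ≤ t₁) (h12 : t₁ ≤ t₂)
    (v : Fin n → ℂ) : qf (D.h t₂ Φ z) v ≤ qf (D.h t₁ Φ z) v :=
  qf_mono (Hk.mono t₁ t₂ h1 h12 Φ U hΦ z hz) v

theorem uc_hasDerivAt_qf (hg : IsMetric 𝓜 g) (hΦ : 𝓜.IsHol Φ U) (hz : z ∈ U) {t : ℝ} (ht : 0 < t)
    (v : Fin n → ℂ) :
    HasDerivAt (fun s => qf (D.h s Φ z) v) (- qf (D.ric t Φ z) v) t := by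
  have h1 : HasDerivAt (fun s => ∑ j, ∑ k, conj (v j) * D.h s Φ z j k * v k)
      (∑ j, ∑ k, conj (v j) * (- D.ric t Φ z j k) * v k) t := by
    refine HasDerivAt.fun_sum fun j _ => HasDerivAt.fun_sum fun k _ => ?_
    exact ((fc_dt_h D hg hΦ ht hz j k).const_mul _).mul_const _
  have h2 := Complex.reCLM.hasFDerivAt.comp_hasDerivAt t h1
  have e1 : (fun s => qf (D.h s Φ z) v) =
      (Complex.reCLM ∘ fun s => ∑ j, ∑ k, conj (v j) * D.h s Φ z j k * v k) := by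
    funext s
    rw [qf_eq_sum]
    rfl
  have e2 : - qf (D.ric t Φ z) v =
      Complex.reCLM (∑ j, ∑ k, conj (v j) * (- D.ric t Φ z j k) * v k) := by
    rw [qf_eq_sum, Complex.reCLM_apply, ← Complex.neg_re, ← Finset.sum_neg_distrib]
    congr 1
    refine Finset.sum_congr rfl fun j _ => ?_
    rw [← Finset.sum_neg_distrib]
    refine Finset.sum_congr rfl fun k _ => ?_
    ring
  rw [e1, e2]
  exact h2

theorem uc_qf_ric_le (Hk : D.Harnack) (hΦ : 𝓜.IsHol Φ U) (hz : z ∈ U) {t : ℝ} (ht : 0 ≤ t)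
    (v : Fin n → ℂ) : qf (D.ric t Φ z) v ≤ D.R t (Φ z) * qf (D.h t Φ z) v := by
  have h1 := qf_ricF_le (D.kahler t ht) (Hk.bisec t ht) hΦ hz v
  rw [D.R_eq t ht _ (CMfd.mem_carrier hΦ hz), scalCurv_eq (D.kahler t ht).toIsMetric hΦ hz]
  exact h1

/-- `h_{t₂} ≥ e^{-κ (t₂ - t₁)} h_{t₁}` at a point where `R ≤ κ` during `[t₁,t₂]`. -/
theorem uc_exp_mul_qf_le (hg : IsMetric 𝓜 g) (Hk : D.Harnack) (hΦ : 𝓜.IsHol Φ U) (hz : z ∈ U)
    (h1 : 0 < t₁) (h12 : t₁ ≤ t₂) (hR : ∀ t ∈ Set.Icc t₁ t₂, D.R t (Φ z) ≤ κ) (v : Fin n → ℂ) :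
    Real.exp (-(κ * (t₂ - t₁))) * qf (D.h t₁ Φ z) v ≤ qf (D.h t₂ Φ z) v := by
  have hd : ∀ t ∈ Set.Icc t₁ t₂, HasDerivAt (fun s => Real.exp (κ * s) * qf (D.h s Φ z) v)
      (Real.exp (κ * t) * κ * qf (D.h t Φ z) v + Real.exp (κ * t) * (- qf (D.ric t Φ z) v)) t := by
    intro t ht
    have a1 : HasDerivAt (fun s : ℝ => Real.exp (κ * s)) (Real.exp (κ * t) * κ) t := by
      have := ((hasDerivAt_id t).const_mul κ).exp
      simpa using this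
    exact a1.mul (uc_hasDerivAt_qf D hg hΦ hz (lt_of_lt_of_le h1 ht.1) v)
  have hmono : MonotoneOn (fun s => Real.exp (κ * s) * qf (D.h s Φ z) v) (Set.Icc t₁ t₂) := by
    refine monotoneOn_of_deriv_nonneg (convex_Icc _ _)
      (fun t ht => (hd t ht).continuousAt.continuousWithinAt)
      (fun t ht => (hd t (interior_subset ht)).differentiableAt.differentiableWithinAt) ?_
    intro t ht
    have ht' := interior_subset ht
    rw [(hd t ht').deriv]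
    have ht0 : 0 ≤ t := (lt_of_lt_of_le h1 ht'.1).le
    have b1 := uc_qf_ric_le D Hk hΦ hz ht0 v
    have b2 : 0 ≤ qf (D.h t Φ z) v := qf_nonneg (fc_posDef D hΦ ht0 hz).posSemidef v
    have b3 : D.R t (Φ z) * qf (D.h t Φ z) v ≤ κ * qf (D.h t Φ z) v :=
      mul_le_mul_of_nonneg_right (hR t ht') b2
    have b4 : 0 < Real.exp (κ * t) := Real.exp_pos _
    nlinarith
  have h3 := hmono ⟨le_rfl, h12⟩ ⟨h12, le_rfl⟩ h12
  simp only at h3
  have e : Real.exp (-(κ * (t₂ - t₁))) = Real.exp (κ * t₁) * (Real.exp (κ * t₂))⁻¹ := by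
    rw [← Real.exp_neg, ← Real.exp_add]
    congr 1
    ring
  rw [e]
  have b4 : 0 < Real.exp (κ * t₂) := Real.exp_pos _
  calc Real.exp (κ * t₁) * (Real.exp (κ * t₂))⁻¹ * qf (D.h t₁ Φ z) v
      = (Real.exp (κ * t₂))⁻¹ * (Real.exp (κ * t₁) * qf (D.h t₁ Φ z) v) := by ring
    _ ≤ (Real.exp (κ * t₂))⁻¹ * (Real.exp (κ * t₂) * qf (D.h t₂ Φ z) v) :=
        mul_le_mul_of_nonneg_left h3 (inv_pos.2 b4).le
    _ = qf (D.h t₂ Φ z) v := by field_simp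

end time

/-- the hypotheses of `UniformCharts`. -/
structure UcWin (D : FlowData 𝓜 g o) (ρ δ Λ t₀ lam : ℝ) (p : V) : Prop where
  rho_pos : 0 < ρ
  delta_pos : 0 < δ
  Lam_pos : 0 < Λ
  p_mem : p ∈ 𝓜.carrier
  lam_pos : 0 < lam
  t_gt : δ / lam < t₀
  R_le : ∀ t ∈ Set.Icc (t₀ - δ / lam) (t₀ + δ / lam), ∀ x ∈ hball 𝓜 (D.h t) p (ρ / Real.sqrt lam),
    D.R t x ≤ Λ * lam

/-- the rescaled flow in a chart. -/
noncomputable def ucK (D : FlowData 𝓜 g o) (Φ : CE (Fin n) → V) (t₀ lam : ℝ) (s : ℝ)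
    (w : CE (Fin n)) : Matrix (Fin n) (Fin n) ℂ :=
  ((lam : ℝ) : ℂ) • D.h (t₀ + s / lam) Φ w

variable {D : FlowData 𝓜 g o} {ρ δ Λ t₀ lam : ℝ} {p : V}

section window

theorem UcWin.time_mem (W : UcWin D ρ δ Λ t₀ lam p) {s : ℝ} (hs : s ∈ Set.Icc (-δ) δ) :
    t₀ + s / lam ∈ Set.Icc (t₀ - δ / lam) (t₀ + δ / lam) ∧ 0 < t₀ + s / lam := by
  have hl := W.lam_pos
  have h1 : -(δ / lam) ≤ s / lam := by
    rw [← neg_div]; exact div_le_div_of_nonneg_right hs.1 hl.le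
  have h2 : s / lam ≤ δ / lam := div_le_div_of_nonneg_right hs.2 hl.le
  have h3 := W.t_gt
  exact ⟨⟨by linarith, by linarith⟩, by linarith⟩

theorem UcWin.Tm_pos (W : UcWin D ρ δ Λ t₀ lam p) : 0 < t₀ - δ / lam := by
  have := W.t_gt
  linarith

theorem UcWin.t0_pos (W : UcWin D ρ δ Λ t₀ lam p) : 0 < t₀ := by
  have := W.t_gt
  have h2 : 0 < δ / lam := div_pos W.delta_pos W.lam_pos
  linarith

/-- (a) -/
theorem UcWin.R_le_Om (W : UcWin D ρ δ Λ t₀ lam p) (I : InitialData 𝓜 g) (Hk : D.Harnack) {t : ℝ}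
    (ht : t ∈ Set.Icc (t₀ - δ / lam) (t₀ + δ / lam)) {x : V}
    (hx : x ∈ hball 𝓜 (D.h (t₀ - δ / lam)) p (ρ / Real.sqrt lam)) : D.R t x ≤ Λ * lam := by
  have hT := W.Tm_pos
  have ht0 : 0 ≤ t := hT.le.trans ht.1
  refine W.R_le t ht x ⟨hx.1, lt_of_le_of_lt ?_ hx.2⟩
  exact hdist_mono (fc_metric D ht0) (fc_metric D hT.le) (Hk.mono _ t hT.le ht.1) I.conn W.p_mem hx.1

/-- comparison with the central time at a point of `Ω`. -/
theorem UcWin.qf_compare (W : UcWin D ρ δ Λ t₀ lam p) (I : InitialData 𝓜 g) (Hk : D.Harnack)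
    (hΦ : 𝓜.IsHol Φ U) {w : CE (Fin n)} (hw : w ∈ U)
    (hwΩ : Φ w ∈ hball 𝓜 (D.h (t₀ - δ / lam)) p (ρ / Real.sqrt lam)) {s : ℝ}
    (hs : s ∈ Set.Icc (-δ) δ) (v : Fin n → ℂ) :
    Real.exp (-(Λ * δ)) * qf (D.h t₀ Φ w) v ≤ qf (D.h (t₀ + s / lam) Φ w) v ∧
      qf (D.h (t₀ + s / lam) Φ w) v ≤ Real.exp (Λ * δ) * qf (D.h t₀ Φ w) v := by
  have hg : IsMetric 𝓜 g := I.kahler.toIsMetric
  have hl := W.lam_pos
  have ht0 := W.t0_pos
  obtain ⟨htw, htpos⟩ := W.time_mem hs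
  have h0w : t₀ ∈ Set.Icc (t₀ - δ / lam) (t₀ + δ / lam) := by
    have h2 : 0 < δ / lam := div_pos W.delta_pos W.lam_pos
    exact ⟨by linarith, by linarith⟩
  have q0 : 0 ≤ qf (D.h t₀ Φ w) v := qf_nonneg (fc_posDef D hΦ ht0.le hw).posSemidef v
  have qt : 0 ≤ qf (D.h (t₀ + s / lam) Φ w) v :=
    qf_nonneg (fc_posDef D hΦ htpos.le hw).posSemidef v
  have hΛδ : 0 ≤ Λ * δ := (mul_pos W.Lam_pos W.delta_pos).le
  have e1 : Real.exp (-(Λ * δ)) ≤ 1 := Real.exp_le_one_iff.2 (by linarith)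
  have e2 : 1 ≤ Real.exp (Λ * δ) := Real.one_le_exp hΛδ
  rcases le_total 0 s with hs0 | hs0
  · have h12 : t₀ ≤ t₀ + s / lam := by
      have : 0 ≤ s / lam := div_nonneg hs0 hl.le
      linarith
    have a1 := uc_exp_mul_qf_le D hg Hk hΦ hw ht0 h12 (κ := Λ * lam)
      (fun t ht => W.R_le_Om I Hk ⟨h0w.1.trans ht.1, ht.2.trans htw.2⟩ hwΩ) v
    have a2 := uc_qf_anti D Hk hΦ hw ht0.le h12 v
    have e3 : Λ * lam * (t₀ + s / lam - t₀) = Λ * s := by field_simp; ring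
    rw [e3] at a1
    have e4 : Real.exp (-(Λ * δ)) ≤ Real.exp (-(Λ * s)) :=
      Real.exp_le_exp.2 (by nlinarith [W.Lam_pos, hs.2])
    constructor
    · exact (mul_le_mul_of_nonneg_right e4 q0).trans a1
    · calc qf (D.h (t₀ + s / lam) Φ w) v ≤ 1 * qf (D.h t₀ Φ w) v := by rw [one_mul]; exact a2
        _ ≤ Real.exp (Λ * δ) * qf (D.h t₀ Φ w) v := mul_le_mul_of_nonneg_right e2 q0
  · have h12 : t₀ + s / lam ≤ t₀ := by
      have : s / lam ≤ 0 := div_nonpos_of_nonpos_of_nonneg hs0 hl.le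
      linarith
    have a1 := uc_exp_mul_qf_le D hg Hk hΦ hw htpos h12 (κ := Λ * lam)
      (fun t ht => W.R_le_Om I Hk ⟨htw.1.trans ht.1, ht.2.trans h0w.2⟩ hwΩ) v
    have a2 := uc_qf_anti D Hk hΦ hw htpos.le h12 v
    have e3 : Λ * lam * (t₀ - (t₀ + s / lam)) = -(Λ * s) := by field_simp; ring
    rw [e3, neg_neg] at a1
    constructor
    · calc Real.exp (-(Λ * δ)) * qf (D.h t₀ Φ w) v ≤ 1 * qf (D.h t₀ Φ w) v :=
          mul_le_mul_of_nonneg_right e1 q0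
        _ ≤ qf (D.h (t₀ + s / lam) Φ w) v := by rw [one_mul]; exact a2
    · have e4 : Real.exp (-(Λ * s)) ≤ Real.exp (Λ * δ) :=
        Real.exp_le_exp.2 (by nlinarith [W.Lam_pos, hs.1])
      have e5 : qf (D.h (t₀ + s / lam) Φ w) v
          = Real.exp (-(Λ * s)) * (Real.exp (Λ * s) * qf (D.h (t₀ + s / lam) Φ w) v) := by
        rw [← mul_assoc, ← Real.exp_add]
        simp
      rw [e5]
      calc Real.exp (-(Λ * s)) * (Real.exp (Λ * s) * qf (D.h (t₀ + s / lam) Φ w) v)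
          ≤ Real.exp (-(Λ * s)) * qf (D.h t₀ Φ w) v :=
            mul_le_mul_of_nonneg_left a1 (Real.exp_pos _).le
        _ ≤ Real.exp (Λ * δ) * qf (D.h t₀ Φ w) v := mul_le_mul_of_nonneg_right e4 q0

/-- on `Ω`: `h_{T₋} ≤ e^{Λδ} h_{t₀}`. -/
theorem UcWin.leFOn_early (W : UcWin D ρ δ Λ t₀ lam p) (I : InitialData 𝓜 g) (Hk : D.Harnack) :
    leFOn 𝓜 (hball 𝓜 (D.h (t₀ - δ / lam)) p (ρ / Real.sqrt lam)) (D.h (t₀ - δ / lam))
      (smulF (fun _ => Real.exp (Λ * δ)) (D.h t₀)) := by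
  intro Φ U hΦ z hz hzΩ
  have hT := W.Tm_pos
  have ht0 := W.t0_pos
  have hH : (smulF (fun _ => Real.exp (Λ * δ)) (D.h t₀) Φ z - D.h (t₀ - δ / lam) Φ z).IsHermitian :=
    (((fc_metric D ht0.le).smul_real (Real.exp_pos (Λ * δ))).herm hΦ z hz).sub
      ((fc_metric D hT.le).herm hΦ z hz)
  rw [posSemidef_iff_qf hH]
  intro v
  have h1 := (W.qf_compare I Hk hΦ hz hzΩ (s := -δ) ⟨le_rfl, by linarith [W.delta_pos]⟩ v).2
  have e : t₀ + -δ / lam = t₀ - δ / lam := by ring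
  rw [e] at h1
  rw [qf_sub]
  have e2 : qf (smulF (fun _ => Real.exp (Λ * δ)) (D.h t₀) Φ z) v
      = Real.exp (Λ * δ) * qf (D.h t₀ Φ z) v := qf_smul _ _ _
  rw [e2]
  linarith

/-- (c) -/
theorem UcWin.chart_mem_Om (W : UcWin D ρ δ Λ t₀ lam p) (I : InitialData 𝓜 g) (Hk : D.Harnack)
    {r C : ℝ} (hC : 0 ≤ C) (hΦ : IsLocBihol 𝓜 Φ (Metric.ball 0 r)) (hΦ0 : Φ 0 = p)
    (hb : ∀ w ∈ Metric.ball (0 : CE (Fin n)) r, leM (((lam : ℝ) : ℂ) • D.h t₀ Φ w) (cI C))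
    (hr : Real.exp (Λ * δ / 2) * Real.sqrt C * r ≤ ρ) {w : CE (Fin n)}
    (hw : w ∈ Metric.ball (0 : CE (Fin n)) r) :
    Φ w ∈ hball 𝓜 (D.h (t₀ - δ / lam)) p (ρ / Real.sqrt lam) := by
  have hT := W.Tm_pos
  have ht0 := W.t0_pos
  have hl := W.lam_pos
  have hsl : 0 < Real.sqrt lam := Real.sqrt_pos.2 hl
  have hm0 : IsMetric 𝓜 (D.h t₀) := fc_metric D ht0.le
  have hm' : IsMetric 𝓜 (smulF (fun _ => Real.exp (Λ * δ)) (D.h t₀)) :=
    hm0.smul_real (Real.exp_pos (Λ * δ))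
  have hmem : Φ w ∈ 𝓜.carrier := hΦ.mapsTo hw
  have hb' : ∀ w ∈ Metric.ball (0 : CE (Fin n)) r, leM (D.h t₀ Φ w) (cI (C / lam)) := by
    intro w hw
    have hher : (D.h t₀ Φ w).IsHermitian := hΦ.isHermitian hm0.toIsHForm hw
    have hher2 : (((lam : ℝ) : ℂ) • D.h t₀ Φ w).IsHermitian :=
      hΦ.isHermitian (hm0.smul_real hl).toIsHForm hw
    rw [uc_le_cI_iff hher]
    intro v
    have h1 := (uc_le_cI_iff hher2 C).1 (hb w hw) v
    rw [qf_smul] at h1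
    rw [div_mul_eq_mul_div, le_div_iff₀ hl]
    linarith
  have h1 := hΦ.hdist_le hm0 (div_nonneg hC hl.le) hb' hw
  rw [hΦ0] at h1
  have h2 : hdist 𝓜 (smulF (fun _ => Real.exp (Λ * δ)) (D.h t₀)) p (Φ w)
      = Real.exp (Λ * δ / 2) * hdist 𝓜 (D.h t₀) p (Φ w) := by
    rw [hdist_smulF_const hm0 (Real.exp_pos _), Real.exp_half]
  have hwn : ‖w‖ < r := by simpa using hw
  have hE : 0 ≤ Real.exp (Λ * δ / 2) * Real.sqrt C := by positivity
  have h3 : Real.exp (Λ * δ / 2) * Real.sqrt C * ‖w‖ < ρ := by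
    rcases hE.eq_or_lt with h0 | hpos
    · rw [← h0, zero_mul]; exact W.rho_pos
    · exact lt_of_lt_of_le (mul_lt_mul_of_pos_left hwn hpos) hr
  have h4 : hdist 𝓜 (smulF (fun _ => Real.exp (Λ * δ)) (D.h t₀)) p (Φ w) < ρ / Real.sqrt lam := by
    rw [h2, lt_div_iff₀ hsl]
    calc Real.exp (Λ * δ / 2) * hdist 𝓜 (D.h t₀) p (Φ w) * Real.sqrt lam
        ≤ Real.exp (Λ * δ / 2) * (Real.sqrt (C / lam) * ‖w‖) * Real.sqrt lam := by
          gcongr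
      _ = Real.exp (Λ * δ / 2) * Real.sqrt C * ‖w‖ := by
          rw [Real.sqrt_div hC]
          field_simp
      _ < ρ := h3
  have h5 := uc_hdist_le_of_leFOn_left (fc_metric D hT.le) hm' I.conn W.p_mem
    (W.leFOn_early I Hk) ⟨hmem, h4⟩
  exact ⟨hmem, lt_of_le_of_lt h5 h4⟩

/-- (d) -/
theorem UcWin.chart_bounds (W : UcWin D ρ δ Λ t₀ lam p) (I : InitialData 𝓜 g) (Hk : D.Harnack)
    {B : Set (CE (Fin n))} {c C : ℝ} (hΦ : IsLocBihol 𝓜 Φ B) {w : CE (Fin n)} (hw : w ∈ B)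
    (hc : 0 ≤ c) (hC : 0 ≤ C)
    (hwΩ : Φ w ∈ hball 𝓜 (D.h (t₀ - δ / lam)) p (ρ / Real.sqrt lam))
    (h1 : leM (cI c) (((lam : ℝ) : ℂ) • D.h t₀ Φ w))
    (h2 : leM (((lam : ℝ) : ℂ) • D.h t₀ Φ w) (cI C)) {s : ℝ} (hs : s ∈ Set.Icc (-δ) δ) :
    leM (cI (Real.exp (-(Λ * δ)) * c)) (ucK D Φ t₀ lam s w) ∧
      leM (ucK D Φ t₀ lam s w) (cI (Real.exp (Λ * δ) * C)) := by
  obtain ⟨U, _, hwU, hU⟩ := hΦ.2 w hw
  have hl := W.lam_pos
  have ht0 := W.t0_pos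
  obtain ⟨_, htpos⟩ := W.time_mem hs
  have hher0 : (((lam : ℝ) : ℂ) • D.h t₀ Φ w).IsHermitian :=
    ((fc_metric D ht0.le).smul_real hl).herm hU w hwU
  have hher : (ucK D Φ t₀ lam s w).IsHermitian :=
    ((fc_metric D htpos.le).smul_real hl).herm hU w hwU
  rw [uc_cI_le_iff hher, uc_le_cI_iff hher]
  have a1 := (uc_cI_le_iff hher0 c).1 h1
  have a2 := (uc_le_cI_iff hher0 C).1 h2
  constructor
  · intro v
    have b := (W.qf_compare I Hk hU hwU hwΩ hs v).1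
    have a := a1 v
    rw [qf_smul] at a
    unfold ucK
    rw [qf_smul]
    calc Real.exp (-(Λ * δ)) * c * ‖v‖ ^ 2 = Real.exp (-(Λ * δ)) * (c * ‖v‖ ^ 2) := by ring
      _ ≤ Real.exp (-(Λ * δ)) * (lam * qf (D.h t₀ Φ w) v) :=
          mul_le_mul_of_nonneg_left a (Real.exp_pos _).le
      _ = lam * (Real.exp (-(Λ * δ)) * qf (D.h t₀ Φ w) v) := by ring
      _ ≤ lam * qf (D.h (t₀ + s / lam) Φ w) v := mul_le_mul_of_nonneg_left b hl.le
  · intro v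
    have b := (W.qf_compare I Hk hU hwU hwΩ hs v).2
    have a := a2 v
    rw [qf_smul] at a
    unfold ucK
    rw [qf_smul]
    calc lam * qf (D.h (t₀ + s / lam) Φ w) v
        ≤ lam * (Real.exp (Λ * δ) * qf (D.h t₀ Φ w) v) := mul_le_mul_of_nonneg_left b hl.le
      _ = Real.exp (Λ * δ) * (lam * qf (D.h t₀ Φ w) v) := by ring
      _ ≤ Real.exp (Λ * δ) * (C * ‖v‖ ^ 2) := mul_le_mul_of_nonneg_left a (Real.exp_pos _).le
      _ = Real.exp (Λ * δ) * C * ‖v‖ ^ 2 := by ring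

end window

section reg

variable {B : Set (CE (Fin n))}

theorem UcWin.isHermitian_K (W : UcWin D ρ δ Λ t₀ lam p) (hΦ : IsLocBihol 𝓜 Φ B) {s : ℝ}
    (hs : s ∈ Set.Icc (-δ) δ) {w : CE (Fin n)} (hw : w ∈ B) : (ucK D Φ t₀ lam s w).IsHermitian := by
  obtain ⟨U, _, hwU, hU⟩ := hΦ.2 w hw
  exact ((fc_metric D (W.time_mem hs).2.le).smul_real W.lam_pos).herm hU w hwU

theorem UcWin.contDiffOn_K (W : UcWin D ρ δ Λ t₀ lam p) (hg : IsMetric 𝓜 g)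
    (hΦ : IsLocBihol 𝓜 Φ B) (j k : Fin n) :
    ContDiffOn ℝ ∞ (fun q : ℝ × CE (Fin n) => ucK D Φ t₀ lam q.1 q.2 j k)
      (Set.Icc (-δ) δ ×ˢ B) := by
  rintro ⟨s, w⟩ ⟨hs, hw⟩
  obtain ⟨U, hUB, hwU, hU⟩ := hΦ.2 w hw
  have hUo : IsOpen U := CMfd.isOpen_dom hU
  have hA : ContDiff ℝ ∞ (fun q : ℝ × CE (Fin n) => (t₀ + q.1 / lam, q.2)) :=
    (contDiff_const.add (contDiff_fst.div_const lam)).prodMk contDiff_snd
  have h1 : ContDiffOn ℝ ∞ (fun q : ℝ × CE (Fin n) => D.h (t₀ + q.1 / lam) Φ q.2 j k)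
      (Set.Icc (-δ) δ ×ˢ U) :=
    (fc_contDiffOn_h D hg hU j k).comp hA.contDiffOn
      (fun q hq => ⟨(W.time_mem hq.1).2.le, hq.2⟩)
  have h2 : ContDiffOn ℝ ∞ (fun q : ℝ × CE (Fin n) => ucK D Φ t₀ lam q.1 q.2 j k)
      (Set.Icc (-δ) δ ×ˢ U) := contDiffOn_const.mul h1
  refine (h2 (s, w) ⟨hs, hwU⟩).mono_of_mem_nhdsWithin ?_
  have h3 : (Set.univ : Set ℝ) ×ˢ U ∈ 𝓝 (s, w) :=
    (isOpen_univ.prod hUo).mem_nhds ⟨Set.mem_univ _, hwU⟩
  filter_upwards [self_mem_nhdsWithin, mem_nhdsWithin_of_mem_nhds h3] with q hq1 hq2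
  exact ⟨hq1.1, hq2.2⟩

/-- the rescaled flow equation. -/
theorem UcWin.hasDeriv_K (W : UcWin D ρ δ Λ t₀ lam p) (hg : IsMetric 𝓜 g)
    (hΦ : IsLocBihol 𝓜 Φ B) {s : ℝ} (hs : s ∈ Set.Icc (-δ) δ) {w : CE (Fin n)} (hw : w ∈ B)
    (j k : Fin n) :
    HasDerivWithinAt (fun s' => ucK D Φ t₀ lam s' w j k)
      (levi (fun y => Real.log (ucK D Φ t₀ lam s y).det.re) w j k) (Set.Icc (-δ) δ) s := by
  obtain ⟨U, _, hwU, hU⟩ := hΦ.2 w hw
  have hl := W.lam_pos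
  have htpos := (W.time_mem hs).2
  have h1 : HasDerivAt (fun s' : ℝ => t₀ + s' / lam) (1 / lam) s := by
    have := ((hasDerivAt_id s).div_const lam).const_add t₀
    simpa using this
  have h2 : HasDerivAt (fun s' : ℝ => D.h (t₀ + s' / lam) Φ w j k)
      (- D.ric (t₀ + s / lam) Φ w j k * ((1 / lam : ℝ) : ℂ)) s := by
    have h0 := (fc_dt_h D hg hU htpos hwU j k).scomp s h1
    have e0 : (1 / lam : ℝ) • (- D.ric (t₀ + s / lam) Φ w j k)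
        = - D.ric (t₀ + s / lam) Φ w j k * ((1 / lam : ℝ) : ℂ) := by
      rw [Complex.real_smul, mul_comm]
    rw [e0] at h0
    exact h0
  have h3 : HasDerivAt (fun s' : ℝ => ucK D Φ t₀ lam s' w j k)
      (((lam : ℝ) : ℂ) * (- D.ric (t₀ + s / lam) Φ w j k * ((1 / lam : ℝ) : ℂ))) s :=
    h2.const_mul _
  have e1 : ((lam : ℝ) : ℂ) * (- D.ric (t₀ + s / lam) Φ w j k * ((1 / lam : ℝ) : ℂ))
      = - D.ric (t₀ + s / lam) Φ w j k := by
    have : ((lam : ℝ) : ℂ) ≠ 0 := by exact_mod_cast hl.ne'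
    push_cast
    field_simp
  have e2 := ricF_smul_real hl (fc_metric D htpos.le) hU hwU
  have e3 : levi (fun y => Real.log (ucK D Φ t₀ lam s y).det.re) w
      = - ricF (fun Φ z => ((lam : ℝ) : ℂ) • D.h (t₀ + s / lam) Φ z) Φ w := by
    simp only [ricF, neg_neg]
    rfl
  rw [e3, e2]
  rw [e1] at h3
  exact h3.hasDerivWithinAt

theorem UcWin.closed_K (W : UcWin D ρ δ Λ t₀ lam p) (hΦ : IsLocBihol 𝓜 Φ B) {s : ℝ}
    (hs : s ∈ Set.Icc (-δ) δ) {w : CE (Fin n)} (hw : w ∈ B) (j k l : Fin n) :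
    dz l (fun y => ucK D Φ t₀ lam s y j k) w - dz k (fun y => ucK D Φ t₀ lam s y j l) w = 0 := by
  obtain ⟨U, _, hwU, hU⟩ := hΦ.2 w hw
  exact sub_eq_zero.2
    (((D.kahler _ (W.time_mem hs).2.le).smul_real W.lam_pos).closed Φ U hU w hwU j k l)

end reg

/-- **Lemma 7.2, general form.** -/
theorem st72 (D : FlowData 𝓜 g o) : St72 D := by
  intro I ho Hk ρ δ Λ hρ hδ hΛ
  have : Nonempty (Fin n) := ⟨⟨0, I.n_pos⟩⟩
  obtain ⟨rA, hrA, HA⟩ := uc_chart_of_scal_le (Fin n) Λ ρ hΛ hρ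
  set E : ℝ := Real.exp (Λ * δ / 2) * Real.sqrt (100 / 9) with hE
  have hEpos : 0 < E := by positivity
  set r₀ : ℝ := min rA (ρ / E) with hr₀
  have hr₀pos : 0 < r₀ := lt_min hrA (by positivity)
  set c : ℝ := Real.exp (-(Λ * δ)) * (9 / 100) with hc
  set C : ℝ := Real.exp (Λ * δ) * (100 / 9) with hC
  have hcC : C⁻¹ = c := by
    rw [hC, hc, mul_inv, ← Real.exp_neg]; norm_num
  obtain ⟨Ck, _, HR⟩ := B9.stCRLocalReg n (r₀ / 2) (δ / 2) C (2 * δ) (fun _ => 0) (fun _ => 0)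
    (by positivity) (by positivity) (by positivity)
  refine ⟨r₀ / 2, c, C, Ck, by positivity, by positivity, ?_⟩
  intro t₀ lam p hp hlam ht₀ hR
  have W : UcWin D ρ δ Λ t₀ lam p := ⟨hρ, hδ, hΛ, hp, hlam, ht₀, hR⟩
  have hdl : 0 < δ / lam := by positivity
  have ht₀pos : 0 < t₀ := lt_trans hdl ht₀
  have hk : IsKahler 𝓜 (D.h t₀) := D.kahler t₀ ht₀pos.le
  obtain ⟨Φ, hΦ, hΦ0, hone, hb⟩ := HA V 𝓜 (fun Φ z => ((lam : ℝ) : ℂ) • D.h t₀ Φ z) p I.closed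
    I.conn (hk.smul_real hlam) (uc_isProper_smul hlam hk.toIsMetric (Hk.proper t₀ ht₀pos.le))
    (uc_bisecNonneg_smul hlam hk.toIsHForm (Hk.bisec t₀ ht₀pos.le)) hp (by
      intro x hx
      rw [uc_hball_smul hlam hk.toIsMetric] at hx
      rw [uc_scalCurv_smul hlam hk.toIsMetric hx.1]
      have h1 := hR t₀ ⟨by linarith, by linarith⟩ x hx
      rw [D.R_eq t₀ ht₀pos.le x hx.1] at h1
      rw [inv_mul_le_iff₀ hlam]
      calc scalCurv 𝓜 (D.h t₀) x ≤ Λ * lam := h1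
        _ = lam * Λ := mul_comm _ _)
  have hsub : Metric.ball (0 : CE (Fin n)) r₀ ⊆ Metric.ball 0 rA :=
    Metric.ball_subset_ball (min_le_left _ _)
  have hsub2 : Metric.ball (0 : CE (Fin n)) (r₀ / 2) ⊆ Metric.ball 0 r₀ :=
    Metric.ball_subset_ball (by linarith)
  have hΦ₀ : IsLocBihol 𝓜 Φ (Metric.ball 0 r₀) := hΦ.mono Metric.isOpen_ball hsub
  have hrE : Real.exp (Λ * δ / 2) * Real.sqrt (100 / 9) * r₀ ≤ ρ := by
    have h1 : r₀ ≤ ρ / E := min_le_right _ _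
    rw [le_div_iff₀ hEpos] at h1
    calc Real.exp (Λ * δ / 2) * Real.sqrt (100 / 9) * r₀ = r₀ * E := by rw [hE]; ring
      _ ≤ ρ := h1
  have hΩ : ∀ w ∈ Metric.ball (0 : CE (Fin n)) r₀,
      Φ w ∈ hball 𝓜 (D.h (t₀ - δ / lam)) p (ρ / Real.sqrt lam) := fun w hw =>
    W.chart_mem_Om I Hk (by norm_num) hΦ₀ hΦ0 (fun w hw => (hb w (hsub hw)).2) hrE hw
  have hbd : ∀ s ∈ Set.Icc (-δ) δ, ∀ w ∈ Metric.ball (0 : CE (Fin n)) r₀,
      leM (cI c) (ucK D Φ t₀ lam s w) ∧ leM (ucK D Φ t₀ lam s w) (cI C) := fun s hs w hw =>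
    W.chart_bounds I Hk hΦ₀ hw (by norm_num) (by norm_num) (hΩ w hw) (hb w (hsub hw)).1
      (hb w (hsub hw)).2 hs
  have h2r : 2 * (r₀ / 2) = r₀ := by ring
  have hg : IsMetric 𝓜 g := I.kahler.toIsMetric
  have hsm : ∀ j k, ContDiffOn ℝ ∞ (fun q : ℝ × CE (Fin n) => ucK D Φ t₀ lam q.1 q.2 j k)
      (Set.Icc (-δ) δ ×ˢ Metric.ball 0 (2 * (r₀ / 2))) := by
    intro j k
    rw [h2r]
    exact W.contDiffOn_K hg hΦ₀ j k
  have HR' := HR (-δ) δ (ucK D Φ t₀ lam) (fun _ _ _ _ => 0) (by linarith) (by linarith) hsm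
    (by
      intro s hs w hw
      rw [h2r] at hw
      rw [hcC]
      exact ⟨W.isHermitian_K hΦ₀ hs hw, hbd s hs w hw⟩)
    (by
      intro s hs w hw j k
      rw [h2r] at hw
      exact W.hasDeriv_K hg hΦ₀ hs hw j k)
    (by
      intro s hs w hw j k l
      rw [h2r] at hw
      exact W.closed_K hΦ₀ hs hw j k l)
    (by
      intro m j k l w _
      have : (fun _ : CE (Fin n) => (0 : ℂ)) = 0 := rfl
      rw [this]
      simp)
  refine ⟨Φ, hΦ₀.mono Metric.isOpen_ball hsub2, hΦ0, hone, ?_, ?_⟩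
  · intro z hz w hw
    exact hbd z ⟨by linarith [hz.1], by linarith [hz.2]⟩ w (hsub2 hw)
  · intro k j l z hz w hw
    have h1 := HR'.1 k j l z ⟨by linarith [hz.1], by linarith [hz.2]⟩ w hw
    rw [B9.within_eq_interior Metric.isOpen_ball (hsm j l)
      (⟨by linarith [hz.1], by linarith [hz.2]⟩ : z ∈ Set.Ioo (-δ) δ)
      (by rw [h2r]; exact hsub2 hw) k] at h1
    exact h1

end Claimed.Agent.R316
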